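import Vale.Agent.P286ET.Spec
import Mathlib.Tactic.ComputeDegree
import Mathlib.Tactic.LinearCombination

/-!
# The cohomology of the structure sheaf of the elliptic curve
-/

namespace Vale.Agent.P286ET2

open Polynomial Vale.Agent.P286ET Vale.Agent.P286ET.Ix

noncomputable section

/-- The quadratic factor. -/
def gg (p q : ℂ) : ℂ[X] := X ^ 2 + C p * X + C q

/-- The cubic. -/
def ff (p q : ℂ) : ℂ[X] := X * gg p q

theorem gg_monic (p q : ℂ) : (gg p q).Monic := by
  unfold gg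
  monicity!

theorem gg_deg (p q : ℂ) : (gg p q).natDegree = 2 := by
  unfold gg
  compute_degree!

theorem ff_monic (p q : ℂ) : (ff p q).Monic := monic_X.mul (gg_monic p q)

theorem ff_deg (p q : ℂ) : (ff p q).natDegree = 3 := by
  rw [ff, monic_X.natDegree_mul (gg_monic p q), natDegree_X, gg_deg]

theorem ff_pow (p q : ℂ) (k : ℕ) : (ff p q ^ k).natDegree = 3 * k := by
  rw [natDegree_pow, ff_deg, mul_comm]

theorem aeval_gg {A : Type} [CommRing A] [Algebra ℂ A] (p q : ℂ) (x : A) :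
    aeval x (gg p q) = x ^ 2 + p • x + algebraMap ℂ A q := by
  simp [gg, Algebra.smul_def]

variable {T : TDat Ix} {p q ν : ℂ} (E : EllD T p q ν)

theorem sq : E.y * E.y = aeval E.x (ff p q) := by
  rw [ff, map_mul, aeval_X, aeval_gg, ← E.eqn, pow_two]

theorem rep (r : T.R a) : ∃ P Q : ℂ[X], r = aeval E.x P + aeval E.x Q * E.y := by
  have hr : r ∈ Algebra.adjoin ℂ {E.x, E.y} := E.gen_a ▸ Algebra.mem_top
  induction hr using Algebra.adjoin_induction with
  | mem z hz =>
    rcases hz with rfl | rfl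
    · exact ⟨X, 0, by simp⟩
    · exact ⟨0, 1, by simp⟩
  | algebraMap c => exact ⟨C c, 0, by simp⟩
  | add z z' _ _ h h' =>
    obtain ⟨P, Q, rfl⟩ := h
    obtain ⟨P', Q', rfl⟩ := h'
    exact ⟨P + P', Q + Q', by simp only [map_add]; ring⟩
  | mul z z' _ _ h h' =>
    obtain ⟨P, Q, rfl⟩ := h
    obtain ⟨P', Q', rfl⟩ := h'
    refine ⟨P * P' + Q * Q' * ff p q, P * Q' + Q * P', ?_⟩
    simp only [map_add, map_mul, ← sq E]
    ring

theorem y_reg {r : T.R a} (h : E.y * r = 0) : r = 0 := by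
  obtain ⟨P, Q, rfl⟩ := rep E r
  obtain ⟨h1, h2⟩ := E.free (Q * ff p q) P (by rw [map_mul, ← sq E, ← h]; ring)
  rw [h2, (mul_eq_zero.1 h1).resolve_right (ff_monic p q).ne_zero]
  simp

include E in
theorem inj_a : Function.Injective (T.tau (tn a)) := by
  refine (injective_iff_map_eq_zero _).2 fun r hr => ?_
  obtain ⟨k, hk⟩ := E.away_a.ker r hr
  induction k with
  | zero => simpa using hk
  | succ k ih => exact ih (y_reg E (by rw [← mul_assoc, ← pow_succ', hk]))

/-- The function `x` on the intersection of the charts. -/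
abbrev xx : T.R n := T.tau (tn a) E.x
/-- The function `y` on the intersection of the charts. -/
abbrev yy : T.R n := T.tau (tn a) E.y
/-- The function `u` on the intersection of the charts. -/
abbrev uu : T.R n := T.tau (tn b) E.u
/-- The function `t` on the intersection of the charts. -/
abbrev tt : T.R n := T.tau (tn b) E.t
/-- The function `1 / g (u)` on the intersection of the charts. -/
abbrev gi : T.R n := T.tau (tn b) E.gi

theorem tau_rep (P Q : ℂ[X]) : T.tau (tn a) (aeval E.x P + aeval E.x Q * E.y) =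
    aeval (xx E) P + aeval (xx E) Q * yy E := by
  rw [map_add, map_mul, aeval_algHom_apply, aeval_algHom_apply]

theorem free_n {P Q : ℂ[X]} (h : aeval (xx E) P + aeval (xx E) Q * yy E = 0) : P = 0 ∧ Q = 0 :=
  E.free P Q (inj_a E (by rw [tau_rep, h, map_zero]))

theorem sq_n : yy E * yy E = aeval (xx E) (ff p q) := by
  rw [← map_mul, sq, aeval_algHom_apply]

theorem gi_n : gi E * (uu E ^ 2 + algebraMap ℂ _ p * uu E + algebraMap ℂ _ q) = 1 := by
  have h := congrArg (T.tau (tn b)) E.gi_mul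
  rw [map_mul, map_add, map_add, map_pow, map_smul, AlgHom.commutes, map_one] at h
  rwa [← Algebra.smul_def]

theorem tt_n : tt E * xx E ^ 2 = - (algebraMap ℂ _ q * yy E) := by
  rw [E.tau_t, Algebra.smul_def]

theorem ff_n : aeval (xx E) (ff p q) =
    xx E * (xx E ^ 2 + algebraMap ℂ _ p * xx E + algebraMap ℂ _ q) := by
  rw [ff, map_mul, aeval_X, aeval_gg, Algebra.smul_def]

theorem deg_ff (Z : ℂ[X]) : (Z * ff p q).natDegree ≤ (X ^ 4 * Z).natDegree := by
  by_cases h : Z = 0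
  · simp [h]
  · rw [natDegree_mul h (ff_monic p q).ne_zero, natDegree_mul (monic_X_pow 4).ne_zero h, ff_deg,
      natDegree_X_pow]
    omega

/-- The functions which are regular at the origin. -/
def SS : Subalgebra ℂ (T.R n) where
  carrier := {r | ∃ (k : ℕ) (P Q : ℂ[X]), P.natDegree ≤ 3 * k ∧ (X ^ 2 * Q).natDegree ≤ 3 * k ∧
    aeval (xx E) (ff p q) ^ k * r = aeval (xx E) P + aeval (xx E) Q * yy E}
  mul_mem' := by
    rintro r r' ⟨k, P, Q, h1, h2, h3⟩ ⟨k', P', Q', h1', h2', h3'⟩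
    refine ⟨k + k', P * P' + Q * Q' * ff p q, P * Q' + Q * P', natDegree_add_le_of_degree_le
      (natDegree_mul_le.trans (by omega)) ((deg_ff _).trans ?_), ?_, ?_⟩
    · rw [show X ^ 4 * (Q * Q') = X ^ 2 * Q * (X ^ 2 * Q') by ring]
      exact natDegree_mul_le.trans (by omega)
    · rw [show X ^ 2 * (P * Q' + Q * P') = P * (X ^ 2 * Q') + X ^ 2 * Q * P' by ring]
      exact natDegree_add_le_of_degree_le (natDegree_mul_le.trans (by omega))
        (natDegree_mul_le.trans (by omega))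
    · rw [pow_add, mul_mul_mul_comm, h3, h3']
      simp only [map_add, map_mul, ← sq_n E]
      ring
  add_mem' := by
    rintro r r' ⟨k, P, Q, h1, h2, h3⟩ ⟨k', P', Q', h1', h2', h3'⟩
    have h4 := ff_pow p q k
    have h5 := ff_pow p q k'
    refine ⟨k + k', P * ff p q ^ k' + ff p q ^ k * P', Q * ff p q ^ k' + ff p q ^ k * Q',
      natDegree_add_le_of_degree_le (natDegree_mul_le.trans (by omega))
        (natDegree_mul_le.trans (by omega)), ?_, ?_⟩
    · rw [show X ^ 2 * (Q * ff p q ^ k' + ff p q ^ k * Q') =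
        X ^ 2 * Q * ff p q ^ k' + ff p q ^ k * (X ^ 2 * Q') by ring]
      exact natDegree_add_le_of_degree_le (natDegree_mul_le.trans (by omega))
        (natDegree_mul_le.trans (by omega))
    · simp only [map_add, map_mul, map_pow]
      linear_combination aeval (xx E) (ff p q) ^ k' * h3 + aeval (xx E) (ff p q) ^ k * h3'
  algebraMap_mem' c := ⟨0, C c, 0, by simp, by simp, by simp⟩

theorem mem_SS (hq : q ≠ 0) (r : T.R b) : T.tau (tn b) r ∈ SS E := by
  have hu := E.tau_u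
  have ht := tt_n E
  have hg := gi_n E
  have hi : algebraMap ℂ (T.R n) q⁻¹ * algebraMap ℂ (T.R n) q = 1 := by
    rw [← map_mul, inv_mul_cancel₀ hq, map_one]
  have h : Algebra.adjoin ℂ {E.u, E.t, E.gi} ≤ (SS E).comap (T.tau (tn b)) := by
    refine Algebra.adjoin_le fun z hz => show T.tau (tn b) z ∈ SS E from ?_
    rcases hz with rfl | rfl | rfl
    · refine ⟨1, C q * gg p q, 0, (natDegree_C_mul_le _ _).trans (by rw [gg_deg]; omega),
        by simp, ?_⟩
      rw [map_mul, aeval_C, aeval_gg, ff_n, map_zero, Algebra.smul_def]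
      linear_combination (xx E ^ 2 + algebraMap ℂ _ p * xx E + algebraMap ℂ _ q) * hu
    · refine ⟨2, 0, C (-q) * gg p q ^ 2, by simp, natDegree_mul_le.trans ?_, ?_⟩
      · have := natDegree_C_mul_le (-q) (gg p q ^ 2)
        rw [natDegree_pow, gg_deg] at this
        rw [natDegree_X_pow]
        omega
      · rw [map_mul, aeval_C, map_pow, aeval_gg, ff_n, map_zero, Algebra.smul_def, map_neg]
        linear_combination (xx E ^ 2 + algebraMap ℂ _ p * xx E + algebraMap ℂ _ q) ^ 2 * ht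
    · refine ⟨1, C q⁻¹ * X ^ 3, 0, (natDegree_C_mul_le _ _).trans (by simp), by simp, ?_⟩
      rw [map_mul, aeval_C, map_pow, aeval_X, ff_n, map_zero]
      linear_combination algebraMap ℂ (T.R n) q⁻¹ * xx E ^ 3 * hg -
        algebraMap ℂ (T.R n) q⁻¹ * xx E * gi E *
          (uu E * xx E + algebraMap ℂ _ q + algebraMap ℂ _ p * xx E) * hu -
        xx E * gi E * (xx E ^ 2 + algebraMap ℂ _ p * xx E + algebraMap ℂ _ q) * hi
  exact h (E.gen_b ▸ Algebra.mem_top)

theorem hb_eq : E.hb = algebraMap ℂ _ (-(2 * q)⁻¹) * (yy E * uu E) := by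
  rw [EllD.hb, Algebra.smul_def]

theorem x_hb (hq : q ≠ 0) : xx E * E.hb = algebraMap ℂ _ (-2⁻¹ : ℂ) * yy E := by
  have h : algebraMap ℂ (T.R n) (-(2 * q)⁻¹) * algebraMap ℂ _ q = algebraMap ℂ _ (-2⁻¹ : ℂ) := by
    rw [← map_mul]
    congr 1
    field_simp
  rw [hb_eq]
  linear_combination algebraMap ℂ (T.R n) (-(2 * q)⁻¹) * yy E * E.tau_u + yy E * h

theorem key (hq : q ≠ 0) {α β : ℂ[X]} {r : T.R b} {c : ℂ}
    (h : aeval (xx E) α + aeval (xx E) β * yy E = T.tau (tn b) r + c • E.hb) :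
    α.natDegree = 0 ∧ β = 0 ∧ c = 0 := by
  obtain ⟨k, P, Q, h1, h2, h3⟩ := mem_SS E hq r
  have hf : ff p q ^ k ≠ 0 := ((ff_monic p q).pow k).ne_zero
  obtain ⟨h4, h5⟩ := free_n E (P := X * (ff p q ^ k * α - P))
    (Q := ff p q ^ k * (X * β - C (c * -2⁻¹)) - X * Q) (by
      rw [Algebra.smul_def] at h
      simp only [map_mul, map_sub, map_pow, aeval_X, aeval_C]
      linear_combination xx E * aeval (xx E) (ff p q) ^ k * h + xx E * h3 +
        algebraMap ℂ _ c * aeval (xx E) (ff p q) ^ k * x_hb E hq)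
  have h6 : X * β - C (c * -2⁻¹) = 0 := by
    by_contra h0
    rw [show X ^ 2 * Q = X * (X * Q) by ring, ← sub_eq_zero.1 h5,
      natDegree_mul X_ne_zero (mul_ne_zero hf h0), natDegree_mul hf h0, ff_pow, natDegree_X] at h2
    omega
  have h7 : c = 0 := by simpa using congrArg (fun Z => coeff Z 0) h6
  refine ⟨?_, by simpa [h7] using h6, h7⟩
  by_cases h0 : α = 0
  · rw [h0, natDegree_zero]
  · rw [← sub_eq_zero.1 ((mul_eq_zero.1 h4).resolve_left X_ne_zero), natDegree_mul hf h0,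
      ff_pow] at h1
    omega

/-- The coboundaries. -/
def M0 (T : TDat Ix) : Submodule ℂ (T.R n) :=
  LinearMap.range (T.tau (tn a)).toLinearMap ⊔ LinearMap.range (T.tau (tn b)).toLinearMap

theorem mem_a (r : T.R a) : T.tau (tn a) r ∈ M0 T := Submodule.mem_sup_left ⟨r, rfl⟩

theorem mem_b (r : T.R b) : T.tau (tn b) r ∈ M0 T := Submodule.mem_sup_right ⟨r, rfl⟩

theorem mem_M0 {r : T.R n} (h : r ∈ M0 T) :
    ∃ (x : T.R a) (y : T.R b), r = T.tau (tn a) x - T.tau (tn b) y := by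
  obtain ⟨_, ⟨x, rfl⟩, _, ⟨y, rfl⟩, rfl⟩ := Submodule.mem_sup.1 h
  exact ⟨x, -y, by rw [map_neg, sub_neg_eq_add]; rfl⟩

theorem of_q (hq : q ≠ 0) {M : Submodule ℂ (T.R n)} {r : T.R n} (h : algebraMap ℂ _ q * r ∈ M) :
    r ∈ M := by
  rw [← Algebra.smul_def] at h
  exact (M.smul_mem_iff hq).1 h

theorem mon (hq : q ≠ 0) {M : Submodule ℂ (T.R n)} (hM : M0 T ≤ M) (z : T.R b)
    (hz : ∀ j : ℕ, xx E ^ j * T.tau (tn b) z ∈ M) (k j i : ℕ) :
    xx E ^ j * (uu E ^ i * gi E ^ k * T.tau (tn b) z) ∈ M := by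
  have hm : ∀ (c : ℂ) {r : T.R n}, r ∈ M → algebraMap ℂ _ c * r ∈ M := fun c r h =>
    Algebra.smul_def c r ▸ M.smul_mem c h
  have h0 : ∀ k i : ℕ, xx E ^ 0 * (uu E ^ i * gi E ^ k * T.tau (tn b) z) ∈ M := fun k i => by
    rw [pow_zero, one_mul, ← map_pow, ← map_pow, ← map_mul, ← map_mul]
    exact hM (mem_b _)
  have h1 : ∀ k j i : ℕ, xx E ^ j * (uu E ^ i * gi E ^ k * T.tau (tn b) z) ∈ M →
      xx E ^ (j + 1) * (uu E ^ (i + 1) * gi E ^ k * T.tau (tn b) z) ∈ M := fun k j i h => by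
    have h2 := hm q h
    rwa [← E.tau_u, show uu E * xx E * (xx E ^ j * (uu E ^ i * gi E ^ k * T.tau (tn b) z)) =
      xx E ^ (j + 1) * (uu E ^ (i + 1) * gi E ^ k * T.tau (tn b) z) by ring] at h2
  induction k generalizing j i with
  | zero =>
    induction j generalizing i with
    | zero => exact h0 0 i
    | succ j ih =>
      rcases i with _ | i
      · simpa using hz (j + 1)
      · exact h1 0 j i (ih i)
  | succ k ihk =>
    induction j generalizing i with
    | zero => exact h0 _ i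
    | succ j ih =>
      rcases i with _ | i
      · refine of_q hq (q := q) ?_
        have h2 := sub_mem (sub_mem (ihk (j + 1) 0) (h1 _ j 1 (ih 1))) (hm p (h1 _ j 0 (ih 0)))
        refine (congrArg (· ∈ M) ?_).mp h2
        linear_combination (-(xx E ^ (j + 1) * gi E ^ k * T.tau (tn b) z)) * gi_n E
      · exact h1 _ j i (ih i)

theorem pol {M : Submodule ℂ (T.R n)} {r : T.R n} (h : ∀ j : ℕ, xx E ^ j * r ∈ M) (P : ℂ[X]) :
    aeval (xx E) P * r ∈ M := by
  induction P using Polynomial.induction_on' with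
  | add P Q h1 h2 => rw [map_add, add_mul]; exact add_mem h1 h2
  | monomial j c =>
    rw [aeval_monomial, mul_assoc, ← Algebra.smul_def]
    exact M.smul_mem c (h j)

theorem span_all (hq : q ≠ 0) (r : T.R n) : r ∈ M0 T ⊔ Submodule.span ℂ {E.hb} := by
  set M := M0 T ⊔ Submodule.span ℂ {E.hb} with hM
  have h1 : ∀ j : ℕ, xx E ^ j * T.tau (tn b) 1 ∈ M := fun j => by
    rw [map_one, mul_one, ← map_pow]
    exact Submodule.mem_sup_left (mem_a _)
  have h2 : ∀ j : ℕ, xx E ^ j * tt E ∈ M := fun j => by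
    rcases j with _ | _ | j
    · rw [pow_zero, one_mul]
      exact Submodule.mem_sup_left (mem_b _)
    · refine of_q hq (q := q) ?_
      have h3 : algebraMap ℂ (T.R n) (2 * q ^ 2) * algebraMap ℂ _ (-(2 * q)⁻¹) =
          - algebraMap ℂ _ q := by
        rw [← map_mul, ← map_neg]
        congr 1
        field_simp
      have h4 : (2 * q ^ 2) • E.hb ∈ M :=
        M.smul_mem _ (Submodule.mem_sup_right (Submodule.mem_span_singleton_self _))
      refine (congrArg (· ∈ M) ?_).mp h4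
      rw [Algebra.smul_def, hb_eq]
      linear_combination yy E * uu E * h3 - uu E * tt_n E + xx E * tt E * E.tau_u
    · have h3 : xx E ^ (j + 1 + 1) * tt E = T.tau (tn a) (E.x ^ j * -(q • E.y)) := by
        rw [map_mul, map_pow, map_neg, map_smul, ← E.tau_t]
        ring
      rw [h3]
      exact Submodule.mem_sup_left (mem_a _)
  obtain ⟨k, z, hz⟩ := E.away_a.surj r
  obtain ⟨P, Q, hP⟩ := rep E (E.y ^ k * z)
  have h3 := congrArg (T.tau (tn a)) hP
  rw [tau_rep, map_mul, map_pow, ← hz, ← mul_assoc, ← mul_pow, sq_n] at h3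
  have h4 : uu E ^ 3 * gi E * aeval (xx E) (ff p q) = algebraMap ℂ _ q ^ 2 := by
    rw [ff_n]
    linear_combination algebraMap ℂ (T.R n) q ^ 2 * gi_n E + gi E * (uu E ^ 2 * xx E ^ 2 +
      uu E * xx E * algebraMap ℂ _ q + algebraMap ℂ _ q ^ 2 + algebraMap ℂ _ p * uu E *
        (uu E * xx E + algebraMap ℂ _ q) + algebraMap ℂ _ q * uu E ^ 2) * E.tau_u
  have h5 := sub_mem (M.smul_mem q (pol E (mon E hq le_sup_left 1 h1 k · (3 * k)) P))
    (pol E (mon E hq le_sup_left E.t h2 k · (3 * k)) (X ^ 2 * Q))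
  have h6 : (uu E ^ (3 * k) * gi E ^ k) * aeval (xx E) (ff p q) ^ k =
      algebraMap ℂ _ (q ^ (2 * k)) := by
    rw [pow_mul, ← mul_pow, ← mul_pow, h4, map_pow, pow_mul]
  refine (M.smul_mem_iff (mul_ne_zero hq (pow_ne_zero (2 * k) hq))).1
    ((congrArg (· ∈ M) ?_).mp h5)
  rw [Algebra.smul_def, Algebra.smul_def, map_mul, map_mul, map_one, map_pow, aeval_X, ← h6]
  linear_combination (-(algebraMap ℂ (T.R n) q * (uu E ^ (3 * k) * gi E ^ k))) * h3 -
    aeval (xx E) Q * (uu E ^ (3 * k) * gi E ^ k) * tt_n E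

theorem w_hb (hq : q ≠ 0) : T.w n E.hb = - E.hb := by
  have hx : IsUnit (xx E) := by
    have h := E.away_a.unit.mul E.away_a.unit
    rw [sq_n, ff_n] at h
    exact isUnit_of_mul_isUnit_left h
  refine hx.mul_left_cancel ?_
  have h1 := congrArg (T.w n) (x_hb E hq)
  rw [map_mul, map_mul, AlgHom.commutes, ← T.tau_w, ← T.tau_w, E.w_x, E.w_y, map_neg (T.tau _)] at h1
  rw [h1, mul_neg, mul_neg, x_hb E hq]

theorem dd_hb (hq : q ≠ 0) : T.dd n E.hb ∈ M0 T := by
  have hx : IsUnit (xx E) := by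
    have h := E.away_a.unit.mul E.away_a.unit
    rw [sq_n, ff_n] at h
    exact isUnit_of_mul_isUnit_left h
  have h1 := congrArg (T.dd n) (x_hb E hq)
  rw [Derivation.leibniz, ← Algebra.smul_def, Derivation.map_smul, ← T.tau_dd, ← T.tau_dd, E.dd_x,
    map_smul] at h1
  have h2 := congrArg (T.tau (tn a)) E.dd_y
  simp only [map_smul, map_add, map_pow, AlgHom.commutes] at h2
  simp only [Algebra.smul_def, map_mul, map_ofNat, map_neg, Algebra.algebraMap_self,
    RingHom.id_apply] at h1 h2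
  have h3 := x_hb E hq
  have h4 := sq_n E
  have h5 : algebraMap ℂ (T.R n) 2⁻¹ * 2 = 1 := by
    rw [← map_ofNat (algebraMap ℂ (T.R n)) 2, ← map_mul, inv_mul_cancel₀ two_ne_zero, map_one]
  rw [ff_n] at h4
  rw [map_neg] at h3
  have h6 : (4 : ℂ) • T.dd n E.hb = ν • (uu E - xx E) := by
    refine (hx.mul hx).mul_left_cancel ?_
    simp only [Algebra.smul_def, map_ofNat]
    linear_combination 4 * xx E * h1 - 4 * algebraMap ℂ _ ν * yy E * h3 -
      2 * algebraMap ℂ (T.R n) 2⁻¹ * xx E * h2 - algebraMap ℂ _ ν * xx E * E.tau_u +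
      2 * algebraMap ℂ _ ν * h4 + (2 * algebraMap ℂ _ ν * yy E * yy E - algebraMap ℂ _ ν * xx E *
        (3 * xx E ^ 2 + 2 * algebraMap ℂ _ p * xx E + algebraMap ℂ _ q)) * h5
  exact ((M0 T).smul_mem_iff (by norm_num : (4 : ℂ) ≠ 0)).1
    (h6 ▸ (M0 T).smul_mem ν (sub_mem (mem_b _) (mem_a _)))

/-- **TRC** -/
theorem trc : TRC := by
  intro T p q ν E hq _
  have h1 : E.hb ∉ M0 T := fun h => by
    obtain ⟨x, y, h2⟩ := mem_M0 h
    obtain ⟨P, Q, rfl⟩ := rep E x
    exact one_ne_zero (key E hq (α := P) (β := Q) (r := y) (c := 1)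
      (by rw [one_smul, h2, tau_rep, add_sub_cancel])).2.2
  obtain ⟨f, hf, hM⟩ := Submodule.exists_le_ker_of_notMem h1
  have h2 : ∀ r, ∃ (x : T.R a) (y : T.R b) (c : ℂ),
      r = T.tau (tn a) x - T.tau (tn b) y + c • E.hb := fun r => by
    obtain ⟨u, hu, v, hv, rfl⟩ := Submodule.mem_sup.1 (span_all E hq r)
    obtain ⟨x, y, rfl⟩ := mem_M0 hu
    obtain ⟨c, rfl⟩ := Submodule.mem_span_singleton.1 hv
    exact ⟨x, y, c, rfl⟩
  have ha : ∀ r, f (T.tau (tn a) r) = 0 := fun r => hM (mem_a r)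
  have hb : ∀ r, f (T.tau (tn b) r) = 0 := fun r => hM (mem_b r)
  have hd : f (T.dd n E.hb) = 0 := hM (dd_hb E hq)
  refine ⟨(f E.hb)⁻¹ • f, fun r => by simp [ha], fun r => by simp [hb], by simp [hf],
    fun r hr => ?_, fun r => ?_, fun r => ?_, fun x y h => ?_⟩
  · obtain ⟨x, y, c, rfl⟩ := h2 r
    have h3 : c = 0 := by simpa [ha, hb, hf] using hr
    exact ⟨x, y, by rw [h3, zero_smul, add_zero]⟩
  · obtain ⟨x, y, c, rfl⟩ := h2 r
    simp [← T.tau_dd, ha, hb, hd]
  · obtain ⟨x, y, c, rfl⟩ := h2 r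
    simp [← T.tau_w, ha, hb, w_hb E hq]
  · obtain ⟨P, Q, rfl⟩ := rep E x
    obtain ⟨h3, h4, -⟩ := key E hq (α := P) (β := Q) (r := y) (c := 0)
      (by rw [zero_smul, add_zero, ← h, tau_rep])
    exact ⟨P.coeff 0, by rw [h4, eq_C_of_natDegree_eq_zero h3]; simp⟩

end

end Vale.Agent.P286ET2
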